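import Mathlib

open Finset

namespace Vale.Agent.P201

variable {K G : Type*} [Field K] [Group G]

/-- Translations by two elements, as used by the convolution. -/
structure ConvStep (G : Type*) [Group G] where
  mul : G → G → G
  div : G → G → G
  mul_div : ∀ g z, mul g (div g z) = z
  div_mul : ∀ g x, div g (mul g x) = x
  free : (∀ u : G, IsOfFinOrder u → u = 1) → ∀ g h x (k : ℕ), 0 < k →
    (fun y => div h (mul g y))^[k] x = x → g = h

/-- Left translations. -/
def leftStep : ConvStep G where
  mul g x := g * x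
  div g z := g⁻¹ * z
  mul_div g z := by simp
  div_mul g x := by simp
  free ht g h x k hk hfix := by
    have hit : ∀ n : ℕ, (fun y => h⁻¹ * (g * y))^[n] x = (h⁻¹ * g) ^ n * x := by
      intro n
      induction n with
      | zero => simp
      | succ n ih => rw [Function.iterate_succ_apply', ih, pow_succ']; simp [mul_assoc]
    rw [hit k] at hfix
    have := ht (h⁻¹ * g) (isOfFinOrder_iff_pow_eq_one.2 ⟨k, hk, by simpa using hfix⟩)
    exact (inv_mul_eq_one.1 this).symm

/-- Right translations. -/
def rightStep : ConvStep G where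
  mul g x := x * g
  div g z := z * g⁻¹
  mul_div g z := by simp
  div_mul g x := by simp
  free ht g h x k hk hfix := by
    have hit : ∀ n : ℕ, (fun y => y * g * h⁻¹)^[n] x = x * (g * h⁻¹) ^ n := by
      intro n
      induction n with
      | zero => simp
      | succ n ih => rw [Function.iterate_succ_apply', ih, pow_succ]; simp [mul_assoc]
    rw [hit k] at hfix
    have := ht (g * h⁻¹) (isOfFinOrder_iff_pow_eq_one.2 ⟨k, hk, by simpa using hfix⟩)
    exact mul_inv_eq_one.1 this

theorem exists_fixed_iterate {S : Finset G} (hne : S.Nonempty) (f : G → G)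
    (hinj : Function.Injective f) (hf : ∀ x ∈ S, f x ∈ S) : ∃ x k, 0 < k ∧ f^[k] x = x := by
  obtain ⟨x, hx⟩ := hne
  have hmem : ∀ n : ℕ, f^[n] x ∈ (S : Set G) := by
    intro n
    induction n with
    | zero => simpa using hx
    | succ n ih => rw [Function.iterate_succ_apply']; exact hf _ ih
  obtain ⟨i, j, hij, he⟩ := S.finite_toSet.exists_lt_map_eq_of_forall_mem hmem
  refine ⟨x, j - i, by omega, (hinj.iterate i) ?_⟩
  rw [← Function.iterate_add_apply, Nat.add_sub_cancel' hij.le]
  exact he.symm

theorem ConvStep.step_injective (C : ConvStep G) (g h : G) :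
    Function.Injective fun y => C.div h (C.mul g y) := by
  intro x y hxy
  have h1 : C.mul g x = C.mul g y := by
    have := congrArg (C.mul h) hxy
    simpa [C.mul_div] using this
  rw [← C.div_mul g x, h1, C.div_mul]

/-- Valuation criterion, for either translation. -/
theorem val_key (C : ConvStep G) (V : ValuationSubring K) (a b : G →₀ K) (T : Finset G)
    (g0 : G) (hg0 : a g0 ≠ 0)
    (hmax : ∀ g, V.valuation (a g) ≤ V.valuation (a g0))
    (hT : ∀ g, V.valuation (a g) = V.valuation (a g0) → g ∈ T)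
    (hone : ∀ g ∈ T, g = g0 ∨ ((∀ u : G, IsOfFinOrder u → u = 1) ∧ T.card ≤ 2))
    (h0 : ∀ z, ∑ g ∈ a.support, a g * b (C.div g z) = 0) : b = 0 := by
  classical
  by_contra hb
  have hne : b.support.Nonempty := Finsupp.support_nonempty_iff.2 hb
  obtain ⟨x0, hx0, hxmax⟩ := b.support.exists_max_image (fun x => V.valuation (b x)) hne
  set S := b.support.filter fun x => V.valuation (b x) = V.valuation (b x0) with hS
  have hSne : S.Nonempty := ⟨x0, by simp [hS, Finsupp.mem_support_iff.1 hx0]⟩
  have hball : ∀ x, V.valuation (b x) ≤ V.valuation (b x0) := by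
    intro x
    by_cases hx : x ∈ b.support
    · exact hxmax x hx
    · rw [Finsupp.notMem_support_iff.1 hx, map_zero]; exact zero_le'
  have hva : V.valuation (a g0) ≠ 0 := (Valuation.ne_zero_iff _).2 hg0
  have hvb : V.valuation (b x0) ≠ 0 :=
    (Valuation.ne_zero_iff _).2 (Finsupp.mem_support_iff.1 hx0)
  have partner : ∀ x ∈ S, ∃ h, h ≠ g0 ∧ h ∈ T ∧ C.div h (C.mul g0 x) ∈ S := by
    intro x hx
    by_contra hno
    simp only [not_exists, not_and] at hno
    have hsum := h0 (C.mul g0 x)
    have hg0s : g0 ∈ a.support := Finsupp.mem_support_iff.2 hg0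
    rw [← Finset.add_sum_erase _ _ hg0s, C.div_mul] at hsum
    have hlt : V.valuation (∑ g ∈ a.support.erase g0, a g * b (C.div g (C.mul g0 x))) <
        V.valuation (a g0) * V.valuation (b x0) := by
      refine V.valuation.map_sum_lt (mul_ne_zero hva hvb) fun g hg => ?_
      rw [map_mul]
      have hgne : g ≠ g0 := (Finset.mem_erase.1 hg).1
      rcases (hmax g).eq_or_lt with he | hlt
      · rw [he]
        refine mul_lt_mul_of_pos_left ?_ (zero_lt_iff.2 hva)
        refine lt_of_le_of_ne (hball _) fun hb' => hno g hgne (hT g he) ?_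
        refine Finset.mem_filter.2 ⟨Finsupp.mem_support_iff.2 fun hz => ?_, hb'⟩
        rw [hz, map_zero] at hb'
        exact hvb hb'.symm
      · exact lt_of_le_of_lt (mul_le_mul_of_nonneg_left (hball _) zero_le')
          (mul_lt_mul_of_pos_right hlt (zero_lt_iff.2 hvb))
    rw [eq_neg_of_add_eq_zero_right hsum, Valuation.map_neg, map_mul,
      (Finset.mem_filter.1 hx).2] at hlt
    exact lt_irrefl _ hlt
  obtain ⟨h, hh, hhT, -⟩ := partner _ hSne.choose_spec
  obtain hh' | ⟨ht, hcard⟩ := hone h hhT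
  · exact hh hh'
  have huniq : ∀ k ∈ T, k ≠ g0 → k = h := by
    intro k hk hk0
    by_contra hkh
    have hsub : ({g0, h, k} : Finset G) ⊆ T := by
      simp [Finset.insert_subset_iff, hT g0 rfl, hhT, hk]
    have := (Finset.card_le_card hsub).trans hcard
    rw [Finset.card_insert_of_notMem (by simp [hh.symm, hk0.symm]),
      Finset.card_pair (Ne.symm hkh)] at this
    omega
  obtain ⟨x, k, hk, hfix⟩ := exists_fixed_iterate hSne (fun y => C.div h (C.mul g0 y))
    (C.step_injective g0 h) fun x hx => by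
      obtain ⟨l, hl, hlT, hlS⟩ := partner x hx
      rwa [huniq l hlT hl] at hlS
  exact hh (C.free ht g0 h x k hk hfix).symm

/-- Dominance criterion, for either translation. -/
theorem abs_key (C : ConvStep G) (ht : ∀ u : G, IsOfFinOrder u → u = 1)
    (N : AbsoluteValue K ℝ) (a b : G →₀ K) (g0 : G) (hg0 : a g0 ≠ 0)
    (hdom : ∑ g ∈ a.support, N (a g) ≤ 2 * N (a g0))
    (h0 : ∀ z, ∑ g ∈ a.support, a g * b (C.div g z) = 0) : b = 0 := by
  classical
  by_contra hb
  have hne : b.support.Nonempty := Finsupp.support_nonempty_iff.2 hb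
  obtain ⟨x0, hx0, hxmax⟩ := b.support.exists_max_image (fun x => N (b x)) hne
  set S := b.support.filter fun x => N (b x) = N (b x0) with hS
  have hSne : S.Nonempty := ⟨x0, by simp [hS, Finsupp.mem_support_iff.1 hx0]⟩
  have hball : ∀ x, N (b x) ≤ N (b x0) := by
    intro x
    by_cases hx : x ∈ b.support
    · exact hxmax x hx
    · rw [Finsupp.notMem_support_iff.1 hx, map_zero]; exact N.nonneg _
  have hva : 0 < N (a g0) := N.pos hg0
  have hvb : 0 < N (b x0) := N.pos (Finsupp.mem_support_iff.1 hx0)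
  set R := a.support.filter (· ≠ g0) with hR
  have partner : ∀ x ∈ S, R.Nonempty ∧ ∀ g ∈ R, C.div g (C.mul g0 x) ∈ S := by
    intro x hx
    have hsum := h0 (C.mul g0 x)
    have hg0s : g0 ∈ a.support := Finsupp.mem_support_iff.2 hg0
    have hRe : R = a.support.erase g0 := by rw [hR, Finset.filter_ne']
    rw [← Finset.add_sum_erase _ _ hg0s, C.div_mul, ← hRe] at hsum
    have h1 : N (a g0) * N (b x0) ≤ ∑ g ∈ R, N (a g) * N (b (C.div g (C.mul g0 x))) := by
      rw [← (Finset.mem_filter.1 hx).2, ← N.map_mul, eq_neg_of_add_eq_zero_left hsum, N.map_neg]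
      exact (N.sum_le _ _).trans_eq (Finset.sum_congr rfl fun g _ => N.map_mul _ _)
    have hle : ∀ g ∈ R, N (a g) * N (b (C.div g (C.mul g0 x))) ≤ N (a g) * N (b x0) :=
      fun g _ => mul_le_mul_of_nonneg_left (hball _) (N.nonneg _)
    have h2 : ∑ g ∈ R, N (a g) * N (b x0) ≤ N (a g0) * N (b x0) := by
      rw [← Finset.sum_mul]
      refine mul_le_mul_of_nonneg_right ?_ hvb.le
      have := Finset.add_sum_erase a.support (fun g => N (a g)) hg0s
      rw [hRe]
      linarith
    have h3 := Finset.sum_le_sum hle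
    refine ⟨?_, fun g hg => ?_⟩
    · by_contra hR0
      rw [Finset.not_nonempty_iff_eq_empty.1 hR0] at h1
      simp only [Finset.sum_empty] at h1
      exact absurd h1 (not_le.2 (mul_pos hva hvb))
    · have heq : N (a g) * N (b (C.div g (C.mul g0 x))) = N (a g) * N (b x0) :=
        (Finset.sum_eq_sum_iff_of_le hle).1 (le_antisymm h3 (h2.trans h1)) g hg
      have hga : N (a g) ≠ 0 :=
        (N.pos (Finsupp.mem_support_iff.1 (Finset.mem_filter.1 hg).1)).ne'
      have hb' := mul_left_cancel₀ hga heq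
      refine Finset.mem_filter.2 ⟨Finsupp.mem_support_iff.2 fun hz => ?_, hb'⟩
      rw [hz, map_zero] at hb'
      linarith
  obtain ⟨h, hh⟩ := (partner _ hSne.choose_spec).1
  obtain ⟨x, k, hk, hfix⟩ := exists_fixed_iterate hSne (fun y => C.div h (C.mul g0 y))
    (C.step_injective g0 h) fun x hx => (partner x hx).2 h hh
  exact (Finset.mem_filter.1 hh).2 (C.free ht g0 h x k hk hfix).symm

theorem coeff_left {a b : MonoidAlgebra K G} (h : a * b = 0) (z : G) :
    ∑ g ∈ a.coeff.support, a.coeff g * b.coeff (leftStep.div g z) = 0 := by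
  have := congrArg (fun m : MonoidAlgebra K G => m.coeff z) h
  simp only [MonoidAlgebra.coeff_zero, Finsupp.coe_zero, Pi.zero_apply] at this
  rw [MonoidAlgebra.coeff_mul_apply_left] at this
  exact this

theorem coeff_right {a b : MonoidAlgebra K G} (h : b * a = 0) (z : G) :
    ∑ g ∈ a.coeff.support, a.coeff g * b.coeff (rightStep.div g z) = 0 := by
  have := congrArg (fun m : MonoidAlgebra K G => m.coeff z) h
  simp only [MonoidAlgebra.coeff_zero, Finsupp.coe_zero, Pi.zero_apply] at this
  rw [MonoidAlgebra.coeff_mul_apply_right] at this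
  rw [← this, Finsupp.sum]
  exact Finset.sum_congr rfl fun g _ => mul_comm _ _

/-- Regular on both sides. -/
def IsTwoSidedRegular (a : MonoidAlgebra K G) : Prop :=
  ∀ b : MonoidAlgebra K G, (a * b = 0 → b = 0) ∧ (b * a = 0 → b = 0)

theorem regular_val (a : MonoidAlgebra K G) (V : ValuationSubring K) (g0 : G)
    (hg0 : a.coeff g0 ≠ 0) (T : Finset G)
    (hmax : ∀ g, V.valuation (a.coeff g) ≤ V.valuation (a.coeff g0))
    (hT : ∀ g, V.valuation (a.coeff g) = V.valuation (a.coeff g0) → g ∈ T)
    (hone : ∀ g ∈ T, g = g0 ∨ ((∀ u : G, IsOfFinOrder u → u = 1) ∧ T.card ≤ 2)) :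
    IsTwoSidedRegular a := fun b =>
  ⟨fun h => MonoidAlgebra.coeff_injective
      (val_key leftStep V a.coeff b.coeff T g0 hg0 hmax hT hone (coeff_left h)),
    fun h => MonoidAlgebra.coeff_injective
      (val_key rightStep V a.coeff b.coeff T g0 hg0 hmax hT hone (coeff_right h))⟩

theorem regular_abs (ht : ∀ u : G, IsOfFinOrder u → u = 1) (a : MonoidAlgebra K G)
    (N : AbsoluteValue K ℝ) (g0 : G) (hg0 : a.coeff g0 ≠ 0)
    (hdom : ∑ g ∈ a.coeff.support, N (a.coeff g) ≤ 2 * N (a.coeff g0)) :
    IsTwoSidedRegular a := fun b =>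
  ⟨fun h => MonoidAlgebra.coeff_injective
      (abs_key leftStep ht N a.coeff b.coeff g0 hg0 hdom (coeff_left h)),
    fun h => MonoidAlgebra.coeff_injective
      (abs_key rightStep ht N a.coeff b.coeff g0 hg0 hdom (coeff_right h))⟩

theorem mul_eq_one_comm_of_regular {a b : MonoidAlgebra K G} (hr : IsTwoSidedRegular a)
    (h : a * b = 1) : b * a = 1 := by
  have : a * (b * a - 1) = 0 := by rw [mul_sub, mul_one, ← mul_assoc, h, one_mul, sub_self]
  exact sub_eq_zero.1 ((hr _).1 this)

end Vale.Agent.P201
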