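import Vale.Agent.P201.Core

open Finset

namespace Vale.Agent.P201

variable {K G : Type*} [Field K] [Group G]

theorem exists_valuation_not_mem {r : K} (hr : ¬IsIntegral ℤ r) :
    ∃ V : ValuationSubring K, r ∉ V := by
  obtain ⟨V, -, hV⟩ := Subring.exists_le_valuationSubring_of_isIntegrallyClosedIn
    (R := (integralClosure ℤ K).toSubring) (x := r) (fun h => hr h)
  exact ⟨V, hV⟩

theorem three_term_ratios (ht : ∀ u : G, IsOfFinOrder u → u = 1) (a : MonoidAlgebra K G)
    (hcard : a.coeff.support.card = 3) (hreg : ¬IsTwoSidedRegular a)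
    (g h : G) (hg : a.coeff g ≠ 0) (hh : a.coeff h ≠ 0) :
    IsIntegral ℤ (a.coeff g / a.coeff h) := by
  classical
  by_contra hr
  obtain ⟨V, hV⟩ := exists_valuation_not_mem hr
  apply hreg
  obtain ⟨g0, hg0, hmax⟩ := a.coeff.support.exists_max_image (fun x => V.valuation (a.coeff x))
    ⟨g, Finsupp.mem_support_iff.2 hg⟩
  have hg0' : a.coeff g0 ≠ 0 := Finsupp.mem_support_iff.1 hg0
  set T := a.coeff.support.filter fun x => V.valuation (a.coeff x) = V.valuation (a.coeff g0)
  have hall : ∀ x, V.valuation (a.coeff x) ≤ V.valuation (a.coeff g0) := by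
    intro x
    by_cases hx : x ∈ a.coeff.support
    · exact hmax x hx
    · rw [Finsupp.notMem_support_iff.1 hx, map_zero]; exact zero_le'
  refine regular_val a V g0 hg0' T hall (fun x hx => ?_) fun x _ => Or.inr ⟨ht, ?_⟩
  · refine Finset.mem_filter.2 ⟨Finsupp.mem_support_iff.2 fun h0 => ?_, hx⟩
    rw [h0, map_zero] at hx
    exact (Valuation.ne_zero_iff _).2 hg0' hx.symm
  · have hnot : h ∉ T := by
      intro hT
      apply hV
      rw [← V.valuation_le_one_iff, map_div₀, (Finset.mem_filter.1 hT).2]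
      exact div_le_one_of_le₀ (hall g) zero_le'
    have hsub : T ⊆ a.coeff.support.erase h := fun x hx =>
      Finset.mem_erase.2 ⟨fun e => hnot (e ▸ hx), (Finset.mem_filter.1 hx).1⟩
    have := Finset.card_le_card hsub
    rw [Finset.card_erase_of_mem (Finsupp.mem_support_iff.2 hh)] at this
    omega

/-- The values `r` admit a common place where all of them vanish. -/
theorem exists_valuation_small {ι : Type*} (r : ι → K)
    (h : ∀ P : MvPolynomial ι ℤ, MvPolynomial.eval₂ (Int.castRingHom K) r P = 0 →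
      MvPolynomial.constantCoeff P ≠ 1) :
    ∃ V : ValuationSubring K, ∀ i, V.valuation (r i) < 1 := by
  let φ : MvPolynomial ι ℤ →+* K := MvPolynomial.eval₂Hom (Int.castRingHom K) r
  let I : Ideal φ.range :=
    Ideal.map φ.rangeRestrict (RingHom.ker (MvPolynomial.constantCoeff (R := ℤ) (σ := ι)))
  have hI : I ≠ ⊤ := by
    rw [Ne, Ideal.eq_top_iff_one]
    intro h1
    obtain ⟨Q, hQ, hQ1⟩ :=
      (Ideal.mem_map_iff_of_surjective _ φ.rangeRestrict_surjective).1 h1
    have hQ1' : φ Q = 1 := congrArg Subtype.val hQ1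
    refine h (1 - Q) ?_ ?_
    · show φ (1 - Q) = 0
      rw [map_sub, map_one, hQ1', sub_self]
    · rw [map_sub, map_one, (RingHom.mem_ker).1 hQ, sub_zero]
  obtain ⟨V, -, hV⟩ := Ideal.image_subset_nonunits_valuationSubring I hI
  refine ⟨V, fun i => (ValuationSubring.mem_nonunits_iff (A := V)).1 (hV ?_)⟩
  refine ⟨φ.rangeRestrict (MvPolynomial.X i), Ideal.mem_map_of_mem _ (by simp), ?_⟩
  simp [φ]

theorem regular_of_small_ratios (ht : ∀ u : G, IsOfFinOrder u → u = 1) (a : MonoidAlgebra K G)
    (g0 g1 : G) (hg0 : a.coeff g0 ≠ 0)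
    (h : ∀ P : MvPolynomial {g : G // g ≠ g0 ∧ g ≠ g1} ℤ,
      MvPolynomial.eval₂ (Int.castRingHom K) (fun g => a.coeff g.1 / a.coeff g0) P = 0 →
      MvPolynomial.constantCoeff P ≠ 1) :
    IsTwoSidedRegular a := by
  classical
  obtain ⟨V, hV⟩ := exists_valuation_small _ h
  have hpos : 0 < V.valuation (a.coeff g0) := zero_lt_iff.2 ((Valuation.ne_zero_iff _).2 hg0)
  have hsmall : ∀ g, g ≠ g0 → g ≠ g1 → V.valuation (a.coeff g) < V.valuation (a.coeff g0) := by
    intro g h0 h1
    have := hV ⟨g, h0, h1⟩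
    rwa [map_div₀, div_lt_one₀ hpos] at this
  rcases le_total (V.valuation (a.coeff g1)) (V.valuation (a.coeff g0)) with hle | hle
  · refine regular_val a V g0 hg0 {g0, g1} (fun g => ?_) (fun g hg => ?_)
      fun g _ => Or.inr ⟨ht, Finset.card_le_two⟩
    · by_cases h0 : g = g0
      · rw [h0]
      by_cases h1 : g = g1
      · rw [h1]; exact hle
      exact (hsmall g h0 h1).le
    · by_contra hgT
      simp only [Finset.mem_insert, Finset.mem_singleton, not_or] at hgT
      exact (hsmall g hgT.1 hgT.2).ne hg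
  · have hg1 : a.coeff g1 ≠ 0 := by
      intro h0
      rw [h0, map_zero] at hle
      exact absurd hle (not_le.2 hpos)
    refine regular_val a V g1 hg1 {g0, g1} (fun g => ?_) (fun g hg => ?_)
      fun g _ => Or.inr ⟨ht, Finset.card_le_two⟩
    · by_cases h0 : g = g0
      · rw [h0]; exact hle
      by_cases h1 : g = g1
      · rw [h1]
      exact ((hsmall g h0 h1).le).trans hle
    · by_contra hgT
      simp only [Finset.mem_insert, Finset.mem_singleton, not_or] at hgT
      exact ((hsmall g hgT.1 hgT.2).trans_le hle).ne hg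

theorem regular_of_unique_small (a : MonoidAlgebra K G) (g0 : G) (hg0 : a.coeff g0 ≠ 0)
    (h : ∀ P : MvPolynomial {g : G // g ≠ g0} ℤ,
      MvPolynomial.eval₂ (Int.castRingHom K) (fun g => a.coeff g.1 / a.coeff g0) P = 0 →
      MvPolynomial.constantCoeff P ≠ 1) :
    IsTwoSidedRegular a := by
  classical
  obtain ⟨V, hV⟩ := exists_valuation_small _ h
  have hpos : 0 < V.valuation (a.coeff g0) := zero_lt_iff.2 ((Valuation.ne_zero_iff _).2 hg0)
  have hsmall : ∀ g, g ≠ g0 → V.valuation (a.coeff g) < V.valuation (a.coeff g0) := by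
    intro g h0
    have := hV ⟨g, h0⟩
    rwa [map_div₀, div_lt_one₀ hpos] at this
  refine regular_val a V g0 hg0 {g0} (fun g => ?_) (fun g hg => ?_)
    fun g hg => Or.inl (Finset.mem_singleton.1 hg)
  · by_cases h0 : g = g0
    · rw [h0]
    · exact (hsmall g h0).le
  · by_contra hgT
    exact (hsmall g (fun e => hgT (Finset.mem_singleton.2 e))).ne hg

theorem small_of_transcendental (a : MonoidAlgebra K G) (g0 : G)
    (h : Transcendental (Subfield.closure (a.coeff '' {g | g ≠ g0})) (a.coeff g0))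
    (P : MvPolynomial {g : G // g ≠ g0} ℤ)
    (hP : MvPolynomial.eval₂ (Int.castRingHom K) (fun g => a.coeff g.1 / a.coeff g0) P = 0) :
    MvPolynomial.constantCoeff P ≠ 1 := by
  intro h1
  let F := Subfield.closure (a.coeff '' {g | g ≠ g0})
  let y : K := (a.coeff g0)⁻¹
  let u : {g : G // g ≠ g0} → Polynomial F := fun g =>
    Polynomial.C (⟨a.coeff g, Subfield.subset_closure ⟨g, g.2, rfl⟩⟩ : F) * Polynomial.X
  let q : Polynomial F := MvPolynomial.eval₂ (Int.castRingHom (Polynomial F)) u P
  have hq0 : Polynomial.evalRingHom (0 : F) q = 1 := by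
    simp only [q]
    rw [MvPolynomial.eval₂_comp_left]
    have hu : (Polynomial.evalRingHom (0 : F) ∘ u) = fun _ => 0 := by
      funext g; simp [u]
    have hc : (Polynomial.evalRingHom (0 : F)).comp (Int.castRingHom (Polynomial F)) =
        Int.castRingHom F := RingHom.ext_int _ _
    rw [hu, hc, MvPolynomial.eval₂_zero'_apply, h1, map_one]
  have hqy : (Polynomial.aeval y : Polynomial F →ₐ[F] K).toRingHom q = 0 := by
    simp only [q]
    rw [MvPolynomial.eval₂_comp_left]
    have hu : ((Polynomial.aeval y : Polynomial F →ₐ[F] K).toRingHom ∘ u) =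
        fun g => a.coeff g.1 / a.coeff g0 := by
      funext g
      simp [u, y, div_eq_mul_inv, Subfield.algebraMap_ofSubfield]
    have hc : (Polynomial.aeval y : Polynomial F →ₐ[F] K).toRingHom.comp
        (Int.castRingHom (Polynomial F)) = Int.castRingHom K := RingHom.ext_int _ _
    rw [hu, hc]
    exact hP
  have hne : q ≠ 0 := by
    intro h0
    rw [h0, map_zero] at hq0
    exact zero_ne_one hq0
  refine h ?_
  have : IsAlgebraic F y := ⟨q, hne, hqy⟩
  simpa [y] using this.inv

theorem rat_three_term (ht : ∀ u : G, IsOfFinOrder u → u = 1) (a : MonoidAlgebra ℚ G)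
    (hcard : a.coeff.support.card = 3) (hreg : ¬IsTwoSidedRegular a)
    (g h : G) (hg : a.coeff g ≠ 0) (hh : a.coeff h ≠ 0) :
    |a.coeff g| = |a.coeff h| := by
  obtain ⟨n, hn⟩ := IsIntegrallyClosed.isIntegral_iff.1 (three_term_ratios ht a hcard hreg g h hg hh)
  obtain ⟨m, hm⟩ := IsIntegrallyClosed.isIntegral_iff.1 (three_term_ratios ht a hcard hreg h g hh hg)
  simp only [algebraMap_int_eq, eq_intCast] at hn hm
  have h1 : ((n * m : ℤ) : ℚ) = 1 := by
    push_cast
    rw [hn, hm, div_mul_div_comm, mul_comm]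
    exact div_self (mul_ne_zero hh hg)
  have h2 : n * m = 1 := by exact_mod_cast h1
  have key : a.coeff g = (n : ℚ) * a.coeff h := by rw [hn, div_mul_cancel₀ _ hh]
  rcases Int.eq_one_or_neg_one_of_mul_eq_one h2 with rfl | rfl <;> simp [key]

end Vale.Agent.P201
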