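import Vale.Agent.P201.Criteria

namespace Vale.Agent.P201

/-- Only the identity has finite order. -/
def TorsionFree (G : Type*) [Group G] : Prop := ∀ u : G, IsOfFinOrder u → u = 1

theorem regular_of_two_dominant {K G : Type*} [Field K] [Group G] (ht : TorsionFree G)
    (a : MonoidAlgebra K G) (V : ValuationSubring K) (g0 g1 : G) (hg0 : a.coeff g0 ≠ 0)
    (h : ∀ g, g ≠ g0 → g ≠ g1 → V.valuation (a.coeff g) < V.valuation (a.coeff g0))
    (h1 : V.valuation (a.coeff g1) ≤ V.valuation (a.coeff g0)) : IsTwoSidedRegular a := by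
  classical
  refine regular_val a V g0 hg0 {g0, g1} (fun g => ?_) (fun g hg => ?_)
    fun g _ => Or.inr ⟨ht, Finset.card_le_two⟩
  · by_cases e0 : g = g0
    · rw [e0]
    by_cases e1 : g = g1
    · rw [e1]; exact h1
    exact (h g e0 e1).le
  · by_contra hgT
    simp only [Finset.mem_insert, Finset.mem_singleton, not_or] at hgT
    exact (h g hgT.1 hgT.2).ne hg

theorem regular_of_one_dominant {K G : Type*} [Field K] [Group G]
    (a : MonoidAlgebra K G) (V : ValuationSubring K) (g0 : G) (hg0 : a.coeff g0 ≠ 0)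
    (h : ∀ g, g ≠ g0 → V.valuation (a.coeff g) < V.valuation (a.coeff g0)) :
    IsTwoSidedRegular a := by
  classical
  refine regular_val a V g0 hg0 {g0} (fun g => ?_) (fun g hg => ?_)
    fun g hg => Or.inl (Finset.mem_singleton.1 hg)
  · by_cases e0 : g = g0
    · rw [e0]
    · exact (h g e0).le
  · by_contra hgT
    exact (h g fun e => hgT (Finset.mem_singleton.2 e)).ne hg

end Vale.Agent.P201
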